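import Mathlib

namespace Vale.Agent.Results.P027.Quadric

open MvPolynomial Filter Topology

lemma plane {σ : Type} (g : MvPolynomial σ ℤ) (hg : g.totalDegree ≤ 2) (p u v : σ → ℚ) :
    ∃ c : Fin 6 → ℚ, ∀ s t : ℚ, aeval (fun i => p i + s * u i + t * v i) g =
      c 0 + c 1 * s + c 2 * t + c 3 * s ^ 2 + c 4 * s * t + c 5 * t ^ 2 := by
  have key : ∀ d ∈ g.support, ∃ c : Fin 6 → ℚ, ∀ s t : ℚ,
      aeval (fun i => p i + s * u i + t * v i) (monomial d (coeff d g)) =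
      c 0 + c 1 * s + c 2 * t + c 3 * s ^ 2 + c 4 * s * t + c 5 * t ^ 2 := fun d hd => by
    have h1 : ∀ f : σ → ℚ, d.prod (fun i k => f i ^ k) = (d.toMultiset.map f).prod := fun f => by
      rw [Finsupp.toMultiset_map, Finsupp.prod_toMultiset,
        Finsupp.prod_mapDomain_index (fun _ => pow_zero _) fun _ _ _ => pow_add _ _ _]
    have h2 : Multiset.card d.toMultiset ≤ 2 := by
      rw [Finsupp.card_toMultiset]
      exact (le_totalDegree hd).trans hg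
    simp only [aeval_monomial, h1]
    generalize algebraMap ℤ ℚ (coeff d g) = a
    generalize d.toMultiset = w at h2
    obtain h | h | h : Multiset.card w = 0 ∨ Multiset.card w = 1 ∨ Multiset.card w = 2 := by omega
    · rw [Multiset.card_eq_zero.1 h]
      exact ⟨![a, 0, 0, 0, 0, 0], fun s t => by simp⟩
    · obtain ⟨i, rfl⟩ := Multiset.card_eq_one.1 h
      exact ⟨![a * p i, a * u i, a * v i, 0, 0, 0], fun s t => by simp; ring⟩
    · obtain ⟨i, j, rfl⟩ := Multiset.card_eq_two.1 h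
      exact ⟨![a * (p i * p j), a * (p i * u j + u i * p j), a * (p i * v j + v i * p j),
        a * (u i * u j), a * (u i * v j + v i * u j), a * (v i * v j)], fun s t => by simp; ring⟩
  choose! c hc using key
  refine ⟨∑ d ∈ g.support, c d, fun s t => ?_⟩
  conv_lhs => rw [g.as_sum, map_sum, Finset.sum_congr rfl fun d hd => hc d hd s t]
  simp only [Finset.sum_add_distrib, Finset.sum_apply, Finset.sum_mul]

lemma half (x : ℚ) (h : x ∈ Set.range (Int.cast : ℤ → ℚ))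
    (h' : x + 1 / 2 ∈ Set.range (Int.cast : ℤ → ℚ)) : False := by
  obtain ⟨a, rfl⟩ := h
  obtain ⟨b, hb⟩ := h'
  have : ((2 * b : ℤ) : ℚ) = ((2 * a + 1 : ℤ) : ℚ) := by
    push_cast
    linarith
  have := Int.cast_injective this
  omega

/-- A set of integers that is the projection of the rational points of one quadric has at most
two elements. -/
theorem result (m : ℕ) (g : MvPolynomial (Option (Fin m)) ℤ) (hg : g.totalDegree ≤ 2)
    (A : Set ℚ)
    (hA : A = {x : ℚ | ∃ y : Fin m → ℚ, aeval (fun i : Option (Fin m) => i.elim x y) g = 0})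
    (hZ : A ⊆ Set.range (Int.cast : ℤ → ℚ)) :
    ∀ x₀ ∈ A, ∀ x₁ ∈ A, ∀ x₂ ∈ A, x₀ = x₁ ∨ x₀ = x₂ ∨ x₁ = x₂ := by
  intro x₀ h₀ x₁ h₁ x₂ h₂
  by_contra hne
  push Not at hne
  obtain ⟨n1, n2, n3⟩ := hne
  have z₀ := hZ h₀
  have z₁ := hZ h₁
  rw [hA] at h₀ h₁ h₂
  obtain ⟨y₀, h₀⟩ := h₀
  obtain ⟨y₁, h₁⟩ := h₁
  obtain ⟨y₂, h₂⟩ := h₂
  obtain ⟨c, hc⟩ := plane g hg (fun i => i.elim x₀ y₀) (fun i => i.elim (x₁ - x₀) (y₁ - y₀))
    fun i => i.elim (x₂ - x₀) (y₂ - y₀)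
  have hm : ∀ s t : ℚ, aeval (fun i : Option (Fin m) => i.elim (x₀ + s * (x₁ - x₀) + t * (x₂ - x₀))
      fun j => y₀ j + s * (y₁ j - y₀ j) + t * (y₂ j - y₀ j)) g =
      c 0 + c 1 * s + c 2 * t + c 3 * s ^ 2 + c 4 * s * t + c 5 * t ^ 2 := fun s t => by
    rw [← hc]
    refine congrArg (fun f => aeval f g) (funext fun i => ?_)
    cases i <;> rfl
  have e0 := hm 0 0
  have e1 := hm 1 0
  have e2 := hm 0 1
  simp only [zero_mul, one_mul, add_zero, add_sub_cancel] at e0 e1 e2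
  rw [h₀] at e0
  rw [h₁] at e1
  rw [h₂] at e2
  have mem : ∀ s t : ℚ, c 3 * (s ^ 2 - s) + c 4 * s * t + c 5 * (t ^ 2 - t) = 0 →
      x₀ + s * (x₁ - x₀) + t * (x₂ - x₀) ∈ Set.range (Int.cast : ℤ → ℚ) := fun s t h => by
    refine hZ (hA ▸ ⟨_, (hm s t).trans ?_⟩)
    linear_combination h - (1 - s - t) * e0 - s * e1 - t * e2
  have a1 : x₁ - x₀ ≠ 0 := sub_ne_zero.2 n1.symm
  have a2 : x₂ - x₀ ≠ 0 := sub_ne_zero.2 n2.symm
  have a3 : x₂ - x₁ ≠ 0 := sub_ne_zero.2 n3.symm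
  by_cases ha : c 3 = 0
  · have := mem (1 / (2 * (x₁ - x₀))) 0 (by simp [ha])
    refine half x₀ z₀ (Set.mem_of_eq_of_mem ?_ this)
    field_simp
    ring
  by_cases hb : c 5 = 0
  · have := mem 0 (1 / (2 * (x₂ - x₀))) (by simp [hb])
    refine half x₀ z₀ (Set.mem_of_eq_of_mem ?_ this)
    field_simp
    ring
  obtain ⟨k, hk⟩ : ∃ k, k = (x₁ - x₀) * c 5 + (x₂ - x₀) * c 3 - (x₁ - x₀) * c 4 := ⟨_, rfl⟩
  have hD : ContinuousAt (fun l : ℚ => c 3 + c 4 * l + c 5 * l ^ 2) 0 := by fun_prop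
  have hF : ContinuousAt
      (fun l : ℚ => |l * (k + c 5 * (x₂ - x₁) * l) / (c 3 + c 4 * l + c 5 * l ^ 2)|) 0 :=
    (ContinuousAt.div (by fun_prop) hD (by simpa using ha)).abs
  have ev := (hD.eventually_ne (y := 0) (by simpa using ha)).and
    (hF.eventually_lt (continuousAt_const (y := (1 : ℚ))) (by simp))
  obtain ⟨l, ⟨l1, l2⟩, l3⟩ := (infinite_of_mem_nhds (0 : ℚ) ev).exists_notMem_finset
    {0, -k / (c 5 * (x₂ - x₁))}
  simp only [Finset.mem_insert, Finset.mem_singleton, not_or] at l3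
  obtain ⟨b, hb'⟩ := mem ((c 3 + c 5 * l) / (c 3 + c 4 * l + c 5 * l ^ 2))
    (l * ((c 3 + c 5 * l) / (c 3 + c 4 * l + c 5 * l ^ 2))) (by field_simp; ring)
  obtain ⟨a, rfl⟩ := z₁
  have e : l * (k + c 5 * (x₂ - a) * l) / (c 3 + c 4 * l + c 5 * l ^ 2) = ((b - a : ℤ) : ℚ) := by
    rw [Int.cast_sub, hb', hk, div_eq_iff l1]
    linear_combination (-((a - x₀) + l * (x₂ - x₀))) * div_mul_cancel₀ (c 3 + c 5 * l) l1
  rw [e] at l2
  have e' : b - a = 0 := Int.abs_lt_one_iff.1 (by exact_mod_cast l2)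
  rw [e', Int.cast_zero, div_eq_zero_iff, or_iff_left l1, mul_eq_zero, or_iff_right l3.1] at e
  apply l3.2
  rw [eq_div_iff (mul_ne_zero hb a3)]
  linear_combination e

end Vale.Agent.Results.P027.Quadric
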